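import Vale.Agent.P106.Defs

/-! # Block statements for the planar block estimates `StD2`, `StD3` -/

open MeasureTheory Complex Set
open scoped ENNReal NNReal ContDiff FourierTransform

namespace Vale.Agent.P106

open Vale.Agent.P117 (E2 E3 Adm nrm Bump)

/-- planar half wave with frequency cut-off `X` -/
noncomputable def wv (X : E2 → ℂ) (t : ℝ) (f : E2 → ℂ) (x : E2) : ℂ :=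
  𝓕⁻ (fun ξ : E2 => cexp (2 * Real.pi * I * (t * ‖ξ‖ : ℝ)) * (X ξ * 𝓕 f ξ)) x

/-- localized estimate: data in the strip `σ y₁ ∈ [S,2S]`, target in the strip `x₁ ∈ [R,2R]`, times `|t| ≤ Λ` -/
def EWp (X : E2 → ℂ) (p a : ℝ) : Prop := ∀ ε : ℝ, 0 < ε → ∃ C : ℝ, 0 ≤ C ∧ ∀ (Λ R S σ : ℝ),
  1 ≤ Λ → 0 < R → 0 < S → (σ = 1 ∨ σ = -1) → ∀ f : E2 → ℂ, Adm volume f →
    (∀ y, f y ≠ 0 → σ * y 1 ∈ Icc S (2 * S)) →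
    ∫⁻ t in Icc (-Λ) Λ, ∫⁻ x in {x : E2 | x 1 ∈ Icc R (2 * R)}, ‖wv X t f x‖ₑ ^ p ≤
      ENNReal.ofReal (C * Λ ^ (1 + ε) * min 1 (R / S) ^ a) * ∫⁻ x, ‖f x‖ₑ ^ p

/-- [EW] the planar estimates for exact waves, with some cut-off equal to one on `1/20 ≤ |ξ| ≤ 10` -/
def StEW : Prop := ∃ X : E2 → ℂ, ContDiff ℝ ∞ X ∧ HasCompactSupport X ∧
  (∀ ξ, 1/20 ≤ ‖ξ‖ → ‖ξ‖ ≤ 10 → X ξ = 1) ∧ EWp X 2 1 ∧ EWp X 3 (1/2)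

/-- [D4] -/
def StD4 : Prop := StEW → StD2 ∧ StD3

/-- [RP] round profile -/
def StRP : Prop := ∃ (c C : ℝ) (h : ℝ → ℝ), 0 < c ∧ HC c C h ∧ ∀ u, |u| ≤ 3 → h u = Real.sqrt (1 + u ^ 2) - 1

/-- cut-off profiles -/
structure Prof (χ w : ℝ → ℂ) : Prop where
  cχ : ContDiff ℝ ∞ χ
  sχ : ∀ t, χ t ≠ 0 → 1/100 ≤ t ∧ t ≤ 100
  cw : ContDiff ℝ ∞ w
  sw : ∀ t, w t ≠ 0 → |t| ≤ 1

/-- arc multiplier with centre `b` and width `s` (in `u = ξ₁/ξ₀`) -/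
noncomputable def marc (χ w : ℝ → ℂ) (b s : ℝ) (ξ : E2) : ℂ := χ (ξ 0) * w ((ξ 1 / ξ 0 - b) / s)

/-- arc projection -/
noncomputable def arc (χ w : ℝ → ℂ) (b s : ℝ) (f : E2 → ℂ) (x : E2) : ℂ :=
  𝓕⁻ (fun ξ : E2 => marc χ w b s ξ * 𝓕 f ξ) x

/-- [AM] bounds for arc projections, uniform in `b` and `s` -/
def StAM : Prop := ∀ χ w : ℝ → ℂ, Prof χ w → ∃ K : ℝ, 0 ≤ K ∧ ∀ b s : ℝ, 0 < s →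
  ∀ f : E2 → ℂ, Adm volume f → Adm volume (arc χ w b s f) ∧
    (∀ ξ, 𝓕 (arc χ w b s f) ξ = marc χ w b s ξ * 𝓕 f ξ) ∧
    FS (arc χ w b s f) (Gcap b s) ∧
    ∫⁻ x, ‖arc χ w b s f x‖ₑ ^ (2:ℝ) ≤ ENNReal.ofReal K * ∫⁻ x, ‖f x‖ₑ ^ (2:ℝ) ∧
    ∫⁻ x, ‖arc χ w b s f x‖ₑ ^ (3:ℝ) ≤ ENNReal.ofReal K * ∫⁻ x, ‖f x‖ₑ ^ (3:ℝ)

/-- slab normals adapted to an arc; `κ` is the size of the transversality on the arc -/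
structure NormalAt (C1 : ℝ) (h : ℝ → ℝ) (n : Fin 3 → ℝ) (b s κ : ℝ) : Prop where
  b0 : s ^ 2 * |n 0| ≤ C1 * κ
  b1 : s * |n 1 - n 0 * b| ≤ C1 * κ
  lower : ∀ v, |v| ≤ 2 → κ ≤ kapn h n (b + s * v)
  upper : ∀ v, |v| ≤ 2 → kapn h n (b + s * v) ≤ C1 * κ

/-- [AR2] energy flux for an arc -/
def StAR2 : Prop := ∀ c C C1 : ℝ, 0 < c → ∃ K : ℝ, 0 ≤ K ∧ ∀ (h : ℝ → ℝ) (n : Fin 3 → ℝ) (b s κ : ℝ),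
  HC c C h → 0 < s → s ≤ 1 → 0 < κ → NormalAt C1 h n b s κ → ∀ (c' H R : ℝ), 0 < H →
    ∀ f : E2 → ℂ, Adm volume f → FS f (Gcap b s) →
    slabInt h n c' H R 2 f ≤ ENNReal.ofReal (K * (H / κ)) * ∫⁻ x, ‖f x‖ₑ ^ (2:ℝ)

/-- [AR3] slab estimate for an arc -/
def StAR3 : Prop := ∀ c C C1 ε : ℝ, 0 < c → 0 < ε → ∃ K : ℝ, 0 ≤ K ∧
  ∀ (h : ℝ → ℝ) (n : Fin 3 → ℝ) (b s κ : ℝ),
  HC c C h → 0 < s → s ≤ 1 → 0 < κ → NormalAt C1 h n b s κ → ∀ (c' H R : ℝ), 0 < H →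
    1 ≤ s ^ 2 * R → H ≤ κ * R → ∀ f : E2 → ℂ, Adm volume f → FS f (Gcap b s) →
    slabInt h n c' H R 3 f ≤ ENNReal.ofReal (K * R ^ ε * (H * R / κ) ^ (1/2:ℝ)) * ∫⁻ x, ‖f x‖ₑ ^ (3:ℝ)

/-- evolution of an arc projection, written as one multiplier -/
noncomputable def evarc (h : ℝ → ℝ) (χ w : ℝ → ℂ) (b s t : ℝ) (f : E2 → ℂ) (x : E2) : ℂ :=
  𝓕⁻ (fun ξ : E2 => cexp (2 * Real.pi * I * (t * qh h ξ : ℝ)) * (marc χ w b s ξ * 𝓕 f ξ)) x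

/-- [LOW] the directions which cannot connect the two strips (one integration by parts) -/
def StLow : Prop := ∀ c C D : ℝ, 0 < c → ∀ χ w : ℝ → ℂ, Prof χ w → ∀ p : ℝ, (p = 2 ∨ p = 3) →
  ∃ K : ℝ, 0 ≤ K ∧ ∀ h : ℝ → ℝ, HC c C h → ∀ (Λ R S σ : ℝ), 1 ≤ Λ → 0 < R → 10 * R ≤ S → 0 < σ →
    ((∀ u, |u| ≤ σ → Λ * |deriv h u| ≤ S / 4) ∨ σ * S ≤ D) →
    ∀ f : E2 → ℂ, Adm volume f → (∀ y, f y ≠ 0 → S ≤ |y 1| ∧ |y 1| ≤ 2 * S) →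
    ∫⁻ t in Icc (-Λ) Λ, ∫⁻ x in {x : E2 | |x 1| ≤ 2 * R}, ‖evarc h χ w 0 σ t f x‖ₑ ^ p ≤
      ENNReal.ofReal (K * (Λ * (R / S))) * ∫⁻ x, ‖f x‖ₑ ^ p

/-- [CK] crude kernel bound: the strips are much farther than `Λ` -/
def StCK : Prop := ∀ X : E2 → ℂ, ContDiff ℝ ∞ X → HasCompactSupport X → (∀ ξ, X ξ ≠ 0 → 1/100 ≤ ‖ξ‖) →
  ∀ p δ : ℝ, (p = 2 ∨ p = 3) → 0 < δ → ∃ K : ℝ, 0 ≤ K ∧ ∀ (Λ R S : ℝ), 1 ≤ Λ → 0 < R → 10 * R ≤ S →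
    Λ ^ (1 + δ) ≤ S → ∀ f : E2 → ℂ, Adm volume f → (∀ y, f y ≠ 0 → S ≤ |y 1| ∧ |y 1| ≤ 2 * S) →
    ∫⁻ t in Icc (-Λ) Λ, ∫⁻ x in {x : E2 | |x 1| ≤ 2 * R}, ‖wv X t f x‖ₑ ^ p ≤
      ENNReal.ofReal (K * (Λ * (R / S))) * ∫⁻ x, ‖f x‖ₑ ^ p

end Vale.Agent.P106
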