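import Vale.Agent.P106.A.Red
import Vale.Agent.P106.Defs2

open MeasureTheory Complex Set
open scoped ENNReal NNReal ContDiff FourierTransform

namespace Vale.Agent.P106

open Vale.Agent.P117 (E2 E3 Adm nrm Bump mult)

/-- [NS] nonstationary part of the planar multiplier -/
def StNS : Prop := ∀ X : E2 → ℂ, ContDiff ℝ ∞ X → HasCompactSupport X →
  (∀ ξ, 1/20 ≤ ‖ξ‖ → ‖ξ‖ ≤ 10 → X ξ = 1) → ∃ (M : ℕ) (C : ℝ), 0 ≤ C ∧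
  ∀ (Λ T A : ℝ) (θ : ℝ → ℂ), 1 ≤ Λ → T ∈ Icc Λ (2 * Λ) → Bump M A θ →
    Integrable (fun ξ : E2 => (1 - X ξ) * mult Λ (thT Λ T θ) (‖ξ‖ ^ 2)) ∧
    ∀ x : E2, (1 + ‖x‖) ^ 3 * ‖𝓕⁻ (fun ξ : E2 => (1 - X ξ) * mult Λ (thT Λ T θ) (‖ξ‖ ^ 2)) x‖ ≤ C * A

end Vale.Agent.P106
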