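import Vale.Agent.P117.Bdl.B1

open MeasureTheory Complex Set
open scoped ENNReal NNReal ContDiff FourierTransform

namespace Vale.Agent.P106

open Vale.Agent.P117 (E2 E3 Adm nrm Bump)

/-- profile functions of cones: `τ = ξ₀ h(ξ₁/ξ₀)` -/
structure HC (c C : ℝ) (h : ℝ → ℝ) : Prop where
  smooth : ContDiff ℝ ∞ h
  zero : h 0 = 0
  dzero : deriv h 0 = 0
  lower : ∀ u, c ≤ deriv (deriv h) u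
  upper : ∀ u, deriv (deriv h) u ≤ C
  third : ∀ u, |deriv (deriv (deriv h)) u| ≤ C

/-- rescaled profile -/
noncomputable def hres (h : ℝ → ℝ) (b s : ℝ) (v : ℝ) : ℝ :=
  (h (b + s * v) - h b - s * v * deriv h b) / s ^ 2

/-- the phase -/
noncomputable def qh (h : ℝ → ℝ) (ξ : E2) : ℝ := ξ 0 * h (ξ 1 / ξ 0)

/-- Fourier support -/
def FS (f : E2 → ℂ) (G : Set E2) : Prop := ∀ ξ, ξ ∉ G → 𝓕 f ξ = 0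

/-- cap of centre `b` and width `s` -/
def Gcap (b s : ℝ) : Set E2 := {ξ | 1/100 ≤ ξ 0 ∧ ξ 0 ≤ 100 ∧ |ξ 1 - b * ξ 0| ≤ s * ξ 0}

/-- the evolution -/
noncomputable def ev (h : ℝ → ℝ) (t : ℝ) (f : E2 → ℂ) (x : E2) : ℂ :=
  𝓕⁻ (fun ξ : E2 => cexp (2 * Real.pi * I * (t * qh h ξ : ℝ)) * 𝓕 f ξ) x

/-- transversality of the rays to the slab normal `n` -/
noncomputable def kapn (h : ℝ → ℝ) (n : Fin 3 → ℝ) (u : ℝ) : ℝ :=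
  n 2 - n 0 * (h u - u * deriv h u) - n 1 * deriv h u

/-- admissible slab normals -/
structure Normal (C1 : ℝ) (h : ℝ → ℝ) (n : Fin 3 → ℝ) : Prop where
  bound : ∀ i, |n i| ≤ C1
  lower : ∀ u, |u| ≤ 2 → 1 ≤ kapn h n u
  upper : ∀ u, |u| ≤ 2 → kapn h n u ≤ C1

/-- the slab `|n·(x,t) - c| ≤ H` at time `t` -/
def slabAt (n : Fin 3 → ℝ) (c H t : ℝ) : Set E2 := {x | |n 0 * x 0 + n 1 * x 1 + n 2 * t - c| ≤ H}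

/-- `∫_{|t| ≤ R} ∫_{slab} |v|^p` -/
noncomputable def slabInt (h : ℝ → ℝ) (n : Fin 3 → ℝ) (c H R p : ℝ) (f : E2 → ℂ) : ℝ≥0∞ :=
  ∫⁻ t in Icc (-R) R, ∫⁻ x in slabAt n c H t, ‖ev h t f x‖ₑ ^ p

/-- the weight `(1+|x|²/R²)^{-1}` squared, as used in all weighted energies -/
noncomputable def wE (R : ℝ) (x : E2) : ℝ≥0∞ := ENNReal.ofReal (((1 + ‖x‖ ^ 2 / R ^ 2)⁻¹) ^ 2)

/-! ## Block statements -/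

/-- [FL] energy flux through slabs (all times) -/
def StFL : Prop := ∀ c C C1 : ℝ, 0 < c → ∃ K : ℝ, 0 ≤ K ∧ ∀ (h : ℝ → ℝ) (n : Fin 3 → ℝ),
  HC c C h → Normal C1 h n → ∀ (c' H R : ℝ), 0 < H → ∀ f : E2 → ℂ, Adm volume f → FS f (Gcap 0 1) →
    slabInt h n c' H R 2 f ≤ ENNReal.ofReal (K * H) * ∫⁻ x, ‖f x‖ₑ ^ (2:ℝ)

/-- [LI] local energy bound for bounded data -/
def StLI : Prop := ∀ c C : ℝ, 0 < c → ∃ K : ℝ, 0 ≤ K ∧ ∀ (h : ℝ → ℝ), HC c C h →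
  ∀ (H R t A : ℝ), 1 ≤ H → H ≤ R → |t| ≤ 2 * R →
    ∀ (f : E2 → ℂ) (y : E2), Adm volume f → FS f (Gcap 0 1) → (∀ x, ‖f x‖ ≤ A) →
    ∫⁻ x, ‖ev h t f x‖ₑ ^ (2:ℝ) * wE H (x - y) ≤ ENNReal.ofReal (K * (H * R * A ^ 2))

/-- [LI'] sup bound -/
def StLIs : Prop := ∀ c C : ℝ, 0 < c → ∃ K : ℝ, 0 ≤ K ∧ ∀ (h : ℝ → ℝ), HC c C h →
  ∀ (R t A : ℝ), 1 ≤ R → |t| ≤ 2 * R →
    ∀ (f : E2 → ℂ) (x : E2), Adm volume f → FS f (Gcap 0 1) → (∀ x, ‖f x‖ ≤ A) →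
    ‖ev h t f x‖ ≤ K * R ^ (1/2 : ℝ) * A

/-- [RS] rescaling -/
noncomputable def rsc (b s : ℝ) (f : E2 → ℂ) (X : E2) : ℂ := f !₂[X 0 - b * X 1 / s, X 1 / s]

def StRS : Prop := ∀ (h : ℝ → ℝ) (b s : ℝ), 0 < s → ∀ f : E2 → ℂ, Adm volume f → FS f (Gcap b s) →
  Adm volume (rsc b s f) ∧ FS (rsc b s f) (Gcap 0 1) ∧
  ∀ (t : ℝ) (x : E2), ev h t f x =
    ev (hres h b s) (s ^ 2 * t) (rsc b s f) !₂[x 0 + b * x 1 + h b * t, s * (x 1 + deriv h b * t)]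

/-- [PL] plane bound -/
def StPL : Prop := ∀ c C C1 : ℝ, 0 < c → ∃ K : ℝ, 0 ≤ K ∧ ∀ (h : ℝ → ℝ) (n : Fin 3 → ℝ),
  HC c C h → Normal C1 h n → ∀ (c' H R : ℝ), 0 < H → 1 ≤ R → ∀ f : E2 → ℂ, Adm volume f → FS f (Gcap 0 1) →
    slabInt h n c' H R 3 f ≤ ENNReal.ofReal (K * (H * R ^ (1/2:ℝ))) * ∫⁻ x, ‖f x‖ₑ ^ (3:ℝ)

/-- [SL] slab theorem -/
def StSL : Prop := ∀ c C C1 ε : ℝ, 0 < c → 0 < ε → ∃ K : ℝ, 0 ≤ K ∧ ∀ (h : ℝ → ℝ) (n : Fin 3 → ℝ),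
  HC c C h → Normal C1 h n → ∀ (c' H R : ℝ), 1 ≤ H → H ≤ R → ∀ f : E2 → ℂ, Adm volume f → FS f (Gcap 0 1) →
    slabInt h n c' H R 3 f ≤ ENNReal.ofReal (K * R ^ ε * (H * R) ^ (1/2:ℝ)) * ∫⁻ x, ‖f x‖ₑ ^ (3:ℝ)

/-- kernel of the frequency localised two dimensional wave operator at time `T ∼ Λ` -/
noncomputable def kw (Λ : ℝ) (θ : ℝ → ℂ) (T q : ℝ) : ℂ :=
  (Λ ^ (-(1/2:ℝ)) : ℝ) * ∫ τ in Ioi (0:ℝ), θ τ * (I / (2 * τ)) * cexp (Real.pi * I * (T ^ 2 - q) / (2 * Λ * τ))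

/-- space-time form of the two dimensional wave operator -/
noncomputable def Bw (Λ : ℝ) (θ : ℝ → ℂ) (f : ℝ × ℝ → ℂ) (g : ℝ × (ℝ × ℝ) → ℂ) : ℂ :=
  ∫ z : ℝ × (ℝ × ℝ), (∫ y : ℝ × ℝ, kw Λ θ z.1 ((z.2.1 - y.1) ^ 2 + (z.2.2 - y.2) ^ 2) * f y) * g z

/-- [D] the planar block estimate: source in `±y₁ ∈ [S,2S]`, target in `x₁ ∈ [R,2R]`, time in `[Λ,2Λ]` -/
def PWave (M : ℕ) (Λ R S N : ℝ) (p q : ℝ≥0∞) : Prop :=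
  ∀ (A : ℝ) (θ : ℝ → ℂ), Bump M A θ → ∀ (σ : ℝ) (f : ℝ × ℝ → ℂ) (g : ℝ × (ℝ × ℝ) → ℂ), (σ = 1 ∨ σ = -1) →
    Adm volume f → Adm volume g → (∀ y, f y ≠ 0 → σ * y.1 ∈ Icc S (2 * S)) →
    (∀ z, g z ≠ 0 → z.1 ∈ Icc Λ (2 * Λ) ∧ z.2.1 ∈ Icc R (2 * R)) →
    ‖Bw Λ θ f g‖ ≤ N * A * nrm p f volume * nrm q g volume

def StD2 : Prop := ∀ ε : ℝ, 0 < ε → ∃ (M : ℕ) (C : ℝ), 0 ≤ C ∧ ∀ (Λ R S : ℝ), 1 ≤ Λ → 0 < R → 0 < S →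
  PWave M Λ R S (C * Λ ^ (1/2 + ε) * min 1 (R / S) ^ (1/2:ℝ)) 2 2

def StD3 : Prop := ∀ ε : ℝ, 0 < ε → ∃ (M : ℕ) (C : ℝ), 0 ≤ C ∧ ∀ (Λ R S : ℝ), 1 ≤ Λ → 0 < R → 0 < S →
  PWave M Λ R S (C * Λ ^ (1/3 + ε) * min 1 (R / S) ^ (1/6:ℝ)) 3 (3/2)

end Vale.Agent.P106
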